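import Vale.Agent.P261.H468.DerDef

/-!
# P261: leaf P2 — the torsion of a derived `p`-complete group with finite `p`-torsion is finite
-/

set_option autoImplicit false

namespace Vale.Agent.P261

namespace H685

variable {p : ℕ} {A : Type*} [AddCommGroup A]

theorem seq_zero (h : DerComplete p A) (x : ℕ → A) (hx : ∀ i, x i = p • x (i + 1)) (i : ℕ) :
    x i = 0 := by
  have h1 := (h 0).unique (y₁ := x) (y₂ := 0) (fun i => by simp [← hx i]) (fun i => by simp)
  rw [h1]; rfl

theorem div_zero (h : DerComplete p A) (D : Set A) (hD : ∀ d ∈ D, ∃ d' ∈ D, d = p • d') (d : A)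
    (hd : d ∈ D) : d = 0 := by
  choose f hf1 hf2 using hD
  let g : D → D := fun d => ⟨f d.1 d.2, hf1 d.1 d.2⟩
  let s : ℕ → D := fun n => g^[n] ⟨d, hd⟩
  have := seq_zero h (fun n => (s n : A)) (fun i => by
    have : s (i + 1) = g (s i) := Function.iterate_succ_apply' g i _
    rw [this]
    exact hf2 (s i).1 (s i).2) 0
  exact this

theorem coprime_zero (h : DerComplete p A) {m : ℕ} (hm : Nat.Coprime m p) {x : A}
    (hx : m • x = 0) : x = 0 := by
  refine div_zero h (AddSubgroup.zmultiples x : Set A) ?_ x (AddSubgroup.mem_zmultiples x)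
  rintro d ⟨n, rfl⟩
  have hb : (1 : ℤ) = m * m.gcdA p + p * m.gcdB p := by
    have := Nat.gcd_eq_gcd_ab m p
    rw [Nat.Coprime] at hm
    rw [hm] at this
    exact_mod_cast this
  refine ⟨(n * m.gcdB p) • x, ⟨n * m.gcdB p, rfl⟩, ?_⟩
  have h1 : (m : ℤ) • x = 0 := by rw [natCast_zsmul, hx]
  have h2 : x = ((p : ℤ) * m.gcdB p) • x := by
    conv_lhs => rw [← one_zsmul x, hb, add_zsmul, mul_comm (m : ℤ), mul_zsmul, h1, zsmul_zero,
      zero_add]
  show n • x = p • ((n * m.gcdB p) • x)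
  conv_lhs => rw [h2]
  rw [← natCast_zsmul, ← mul_zsmul, ← mul_zsmul]
  congr 1
  ring

/-- The `p ^ k`-torsion. -/
def tor (p : ℕ) (A : Type*) [AddCommGroup A] (k : ℕ) : Set A := {x | p ^ k • x = 0}

theorem fiber_finite (hf : {x : A | p • x = 0}.Finite) (y : A) : {x : A | p • x = y}.Finite := by
  by_cases hy : ∃ x0, p • x0 = y
  · obtain ⟨x0, h0⟩ := hy
    refine (hf.image (fun z => x0 + z)).subset ?_
    intro x hx
    refine ⟨x - x0, ?_, by simp⟩
    show p • (x - x0) = 0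
    rw [smul_sub, hx, h0, sub_self]
  · convert Set.finite_empty
    ext x
    simp only [Set.mem_setOf_eq, Set.mem_empty_iff_false, iff_false]
    exact fun hx => hy ⟨x, hx⟩

theorem tor_finite (hf : {x : A | p • x = 0}.Finite) (k : ℕ) : (tor p A k).Finite := by
  induction k with
  | zero => simp [tor]
  | succ k ih =>
    refine (ih.biUnion (fun y _ => fiber_finite hf y)).subset ?_
    intro x hx
    simp only [Set.mem_iUnion, Set.mem_setOf_eq, exists_prop]
    refine ⟨p • x, ?_, rfl⟩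
    show p ^ k • (p • x) = 0
    rw [← mul_smul, ← pow_succ]
    exact hx

theorem exists_all {F : Set A} (hF : F.Finite) (P : ℕ → A → Prop)
    (hP : ∀ k y, P (k + 1) y → P k y) (hne : ∀ k, ∃ y ∈ F, P k y) : ∃ y ∈ F, ∀ k, P k y := by
  by_contra hcon
  push Not at hcon
  have hmono : ∀ y a b, a ≤ b → P b y → P a y := by
    intro y a b hab
    induction hab with
    | refl => exact id
    | step _ ih => exact fun hb => ih (hP _ _ hb)
  choose! f hf using hcon
  obtain ⟨y, hy, hPy⟩ := hne (hF.toFinset.sup f)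
  exact hf y hy (hmono y _ _ (Finset.le_sup (f := f) (hF.mem_toFinset.2 hy)) hPy)

/-- The elements divisible by `p ^ k` in the `p`-power torsion. -/
def Dv (p : ℕ) {A : Type*} [AddCommGroup A] (k : ℕ) (y : A) : Prop :=
  ∃ t : A, (∃ n, p ^ n • t = 0) ∧ y = p ^ k • t

theorem Dv_succ (k : ℕ) (y : A) (hy : Dv p (k + 1) y) : Dv p k y := by
  obtain ⟨t, ⟨n, hn⟩, ht⟩ := hy
  refine ⟨p • t, ⟨n, ?_⟩, ?_⟩
  · rw [smul_comm, hn, smul_zero]
  · rw [ht, pow_succ, mul_smul]

theorem dv_zero (h : DerComplete p A) (hf : {x : A | p • x = 0}.Finite) (d : A)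
    (hd : ∀ k, Dv p k d) : d = 0 := by
  refine div_zero h {d | ∀ k, Dv p k d} ?_ d hd
  intro d hd
  obtain ⟨y, hy1, hy2⟩ := exists_all (fiber_finite hf d) (Dv p) Dv_succ (fun k => by
    obtain ⟨t, ht, h2⟩ := hd (k + 1)
    refine ⟨p ^ k • t, ?_, t, ht, rfl⟩
    show p • p ^ k • t = d
    rw [h2, ← mul_smul, ← pow_succ'])
  exact ⟨y, hy2, hy1.symm⟩

theorem bounded (h : DerComplete p A) (hf : {x : A | p • x = 0}.Finite) :
    ∃ k, ∀ x : A, (∃ n, p ^ n • x = 0) → p ^ k • x = 0 := by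
  by_contra hcon
  push Not at hcon
  obtain ⟨z, hz, hz2⟩ := exists_all (F := {x : A | p • x = 0}) hf
    (fun k y => y ≠ 0 ∧ Dv p k y) (fun k y hy => ⟨hy.1, Dv_succ k y hy.2⟩) (fun k => by
      obtain ⟨x, ⟨n, hn⟩, hk⟩ := hcon k
      classical
      have hex : ∃ n, p ^ n • x = 0 := ⟨n, hn⟩
      have hN := Nat.find_spec hex
      have hmin := fun m => Nat.find_min hex (m := m)
      have hlt : k < Nat.find hex := by
        by_contra hle
        push Not at hle
        apply hk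
        obtain ⟨c, hc⟩ := Nat.exists_eq_add_of_le hle
        rw [hc, pow_add, mul_comm, mul_smul, hN, smul_zero]
      obtain ⟨c, hc⟩ := Nat.exists_eq_add_of_lt hlt
      refine ⟨p ^ (k + c) • x, ?_, hmin _ (by omega), p ^ c • x, ⟨Nat.find hex, ?_⟩, ?_⟩
      · show p • p ^ (k + c) • x = 0
        rw [← mul_smul, ← pow_succ', ← hc]
        exact hN
      · rw [smul_comm, hN, smul_zero]
      · rw [pow_add, mul_smul])
  exact (hz2 0).1 (dv_zero h hf z (fun k => (hz2 k).2))

end H685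

theorem DerComplete.finite_torsion {p : ℕ} [Fact p.Prime] {A : Type*} [AddCommGroup A]
    (h : DerComplete p A) (hf : {x : A | p • x = 0}.Finite) :
    {x : A | ∃ m : ℕ, m ≠ 0 ∧ m • x = 0}.Finite := by
  obtain ⟨k, hk⟩ := H685.bounded h hf
  refine (H685.tor_finite hf k).subset ?_
  rintro x ⟨m, hm, hx⟩
  obtain ⟨e, m', hm', rfl⟩ := Nat.exists_eq_pow_mul_and_not_dvd hm p
    (Fact.out : p.Prime).ne_one
  apply hk x ⟨e, ?_⟩
  refine H685.coprime_zero h (m := m') ?_ ?_
  · exact ((Nat.Prime.coprime_iff_not_dvd (Fact.out : p.Prime)).2 hm').symm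
  · rw [← mul_smul, mul_comm]
    exact hx

end Vale.Agent.P261
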